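import Vale.Agent.P268.T.S708.StarSL

/-!
# P268: pairs of sums of chain polynomials in every large number of variables

The pairs of `starSL` in every sufficiently large number of variables (adding summands `z ^ 3` to
both), and elementary properties of sums of chain polynomials: they are polynomials, and they are
weighted homogeneous with positive integer weights.
-/

namespace Vale.Agent.P268.H671

open Matrix Vale.Agent.P268.Z Vale.Agent.P268.T

/-- The pairs of `starSL 2` in `N` variables. -/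
def SL (N : ℕ) : Prop :=
  ∃ (m n : ℕ) (F : Fin m → List ℕ) (G : Fin n → List ℕ),
    2 ≤ m ∧ 2 ≤ n ∧ (∀ i, F i ≠ []) ∧ (∀ i, G i ≠ []) ∧
    (∀ i, ∀ a ∈ F i, 2 ≤ a) ∧ (∀ i, ∀ a ∈ G i, 2 ≤ a) ∧
    (∀ i, ∃ (l : List ℕ) (x : ℕ), F i = l ++ [x] ∧ 3 ≤ x) ∧
    (∃ i, F i = [3]) ∧ (∃ i, G i = [2]) ∧
    ∑ i, (F i).length = N ∧ ∑ i, (G i).length = N ∧ 4 ≤ N ∧
    (∀ i, (F i).IsChain (· < ·)) ∧ (∀ i, (G i).IsChain (· < ·)) ∧
    (∃ e : Fin 2 ↪ Fin m, ∀ k, F (e k) = [3]) ∧
    ∃ (e : StairF F ≃ StairF G) (U : Matrix (StairF F) (StairF F) ℤ), U.det = 1 ∧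
      zetaF F = Uᵀ * (zetaF G).submatrix e e * U

theorem SL.exists : ∃ N, SL N := by
  obtain ⟨m, n, F, G, h1, h2, h3, h4, h5, h6, h7, h8, h9, h10, h11, h12, h13, h14, _, h16⟩ :=
    starSL 2
  exact ⟨_, m, n, F, G, h1, h2, h3, h4, h5, h6, h7, h8, h9, rfl, h10.symm, h11, h12, h13, h14, h16⟩

theorem congruent_of_det_one {m n : ℕ} {F : Fin m → List ℕ} {G : Fin n → List ℕ}
    (e : StairF F ≃ StairF G) {U : Matrix (StairF F) (StairF F) ℤ} (hU : U.det = 1)
    (h : zetaF F = Uᵀ * (zetaF G).submatrix e e * U) : Z.Congruent (zetaF F) (zetaF G) := by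
  have hu : IsUnit U.det := by rw [hU]; exact isUnit_one
  have h1 : Z.Congruent (zetaF F) ((zetaF G).submatrix e e) :=
    ⟨U, U⁻¹, Matrix.nonsing_inv_mul U hu, Matrix.mul_nonsing_inv U hu, h.symm⟩
  exact h1.trans (congruent_of_equiv e fun x y => rfl)

theorem SL.succ {N : ℕ} (h : SL N) : SL (N + 1) := by
  obtain ⟨m, n, F, G, h1, h2, h3, h4, h5, h6, h7, ⟨i8, h8⟩, ⟨i9, h9⟩, h10, h11, h12, h13, h14,
    ⟨e15, h15⟩, e, U, hU, hFG⟩ := h
  refine ⟨m + 1, n + 1, consF [3] F, consF [3] G, by omega, by omega, ?_, ?_, ?_, ?_, ?_,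
    ⟨i8.succ, h8⟩, ⟨i9.succ, h9⟩, ?_, ?_, by omega, ?_, ?_,
    ⟨e15.trans (Fin.succEmb m), h15⟩,
    exists_det_one [3] ⟨1, card_stair_three⟩ F G (congruent_of_det_one e hU hFG)⟩
  · exact Fin.cases (by simp [consF]) h3
  · exact Fin.cases (by simp [consF]) h4
  · exact Fin.cases (by simp [consF]) h5
  · exact Fin.cases (by simp [consF]) h6
  · exact Fin.cases ⟨[], 3, rfl, le_rfl⟩ h7
  · rw [Fin.sum_univ_succ, ← h10, add_comm]
    rfl
  · rw [Fin.sum_univ_succ, ← h11, add_comm]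
    rfl
  · exact Fin.cases (by simp [consF]) h13
  · exact Fin.cases (by simp [consF]) h14

theorem SL.of_le {N M : ℕ} (h : SL N) (hNM : N ≤ M) : SL M := by
  induction M, hNM using Nat.le_induction with
  | base => exact h
  | succ M _ ih => exact ih.succ

/-! ### Sums of chain polynomials are polynomials -/

/-- The sum of chain polynomials as a polynomial in `N` variables, with integer coefficients. -/
noncomputable def polySum {ι : Type} [Fintype ι] (F : ι → List ℕ) {N : ℕ} (e : Vars F ≃ Fin N) :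
    MvPolynomial (Fin N) ℤ :=
  ∑ i, ∑ j : Fin (F i).length, MvPolynomial.X (e ⟨i, j⟩) ^ ((F i).get j) *
    (if h : (j : ℕ) + 1 < (F i).length then MvPolynomial.X (e ⟨i, ⟨j + 1, h⟩⟩) else 1)

theorem aeval_polySum {ι : Type} [Fintype ι] (F : ι → List ℕ) {N : ℕ} (e : Vars F ≃ Fin N)
    (z : Fin N → ℂ) : MvPolynomial.aeval z (polySum F e) = sumFun F (z ∘ e) := by
  unfold polySum sumFun chainFun
  rw [map_sum]
  refine Finset.sum_congr rfl fun i _ => ?_
  rw [map_sum]
  refine Finset.sum_congr rfl fun j _ => ?_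
  rw [map_mul, map_pow, MvPolynomial.aeval_X]
  congr 1
  split_ifs
  · rw [MvPolynomial.aeval_X]
    rfl
  · rw [map_one]

/-! ### Weighted homogeneity -/

/-- `c.prod` times the weight of the head variable. -/
def hw : List ℕ → ℕ
  | [] => 0
  | _ :: c => c.prod - hw c

theorem hw_le {c : List ℕ} (hc : ∀ a ∈ c, 2 ≤ a) : 2 * hw c ≤ c.prod := by
  cases c with
  | nil => simp [hw]
  | cons a c =>
    have ha : 2 ≤ a := hc a List.mem_cons_self
    rw [hw, List.prod_cons]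
    calc 2 * (c.prod - hw c) ≤ 2 * c.prod := Nat.mul_le_mul_left _ (Nat.sub_le _ _)
      _ ≤ a * c.prod := Nat.mul_le_mul_right _ ha

theorem prod_pos {c : List ℕ} (hc : ∀ a ∈ c, 2 ≤ a) : 0 < c.prod :=
  List.prod_pos fun a ha => by have := hc a ha; omega

theorem hw_pos {c : List ℕ} (hc : ∀ a ∈ c, 2 ≤ a) (h0 : c ≠ []) : 0 < hw c := by
  cases c with
  | nil => exact absurd rfl h0
  | cons a c =>
    have hc' : ∀ b ∈ c, 2 ≤ b := fun b hb => hc b (List.mem_cons_of_mem a hb)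
    have h1 := hw_le hc'
    have h2 := prod_pos hc'
    rw [hw]
    omega

/-- The integer weights of a chain polynomial, of total degree `D`. -/
def wt (D : ℕ) (c : List ℕ) (j : ℕ) : ℕ := D / (c.drop j).prod * hw (c.drop j)

theorem drop_prod_dvd (c : List ℕ) (j : ℕ) : (c.drop j).prod ∣ c.prod := by
  conv_rhs => rw [← List.take_append_drop j c, List.prod_append]
  exact Dvd.intro_left _ rfl

theorem wt_pos {D : ℕ} (hD : 0 < D) {c : List ℕ} (hc : ∀ a ∈ c, 2 ≤ a) (hd : c.prod ∣ D) {j : ℕ}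
    (hj : j < c.length) : 0 < wt D c j := by
  have hc' : ∀ a ∈ c.drop j, 2 ≤ a := fun a ha => hc a (List.mem_of_mem_drop ha)
  refine Nat.mul_pos (Nat.div_pos (Nat.le_of_dvd hD ((drop_prod_dvd c j).trans hd))
    (prod_pos hc')) (hw_pos hc' ?_)
  intro h
  rw [List.drop_eq_nil_iff] at h
  omega

theorem wt_rel {D : ℕ} {c : List ℕ} (hc : ∀ a ∈ c, 2 ≤ a) (hd : c.prod ∣ D)
    (j : Fin c.length) : wt D c j * c.get j + wt D c (j + 1) = D := by
  have h2 : c.drop j = c.get j :: c.drop (j + 1) := by simp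
  obtain ⟨e, he⟩ := (drop_prod_dvd c j).trans hd
  have hc1 : ∀ a ∈ c.drop (j + 1), 2 ≤ a := fun a ha => hc a (List.mem_of_mem_drop ha)
  have hp1 := prod_pos hc1
  have ha : 2 ≤ c.get j := hc _ (List.get_mem c j)
  have hle := hw_le hc1
  have hp : (c.drop j).prod = c.get j * (c.drop (j + 1)).prod := by rw [h2, List.prod_cons]
  have h3 : D / (c.drop j).prod = e := by
    rw [he]
    exact Nat.mul_div_cancel_left _ (by rw [hp]; positivity)
  have h4 : D / (c.drop (j + 1)).prod = c.get j * e := by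
    rw [he, hp]
    rw [mul_comm (c.get j), mul_assoc]
    exact Nat.mul_div_cancel_left _ hp1
  have h5 : hw (c.drop j) = (c.drop (j + 1)).prod - hw (c.drop (j + 1)) := by rw [h2, hw]
  unfold wt
  rw [h3, h4, h5]
  have hle' : hw (c.drop (j + 1)) ≤ (c.drop (j + 1)).prod := by omega
  obtain ⟨s, hs⟩ := Nat.exists_eq_add_of_le hle'
  rw [he, hp, hs, Nat.add_sub_cancel_left]
  ring

/-- Sums of chain polynomials are weighted homogeneous, with positive integer weights. -/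
theorem polySum_weighted {ι : Type} [Fintype ι] (F : ι → List ℕ) {N : ℕ} (e : Vars F ≃ Fin N)
    (hF : ∀ i, ∀ a ∈ F i, 2 ≤ a) :
    ∃ (w : Fin N → ℕ) (D : ℕ), (∀ k, 0 < w k) ∧ (polySum F e).IsWeightedHomogeneous w D := by
  obtain ⟨D, hD, hd⟩ : ∃ D : ℕ, 0 < D ∧ ∀ i, (F i).prod ∣ D :=
    ⟨∏ i, (F i).prod, Finset.prod_pos fun i _ => prod_pos (hF i),
      fun i => Finset.dvd_prod_of_mem _ (Finset.mem_univ i)⟩
  obtain ⟨W, hW, hW'⟩ : ∃ W : Fin N → ℕ, (∀ k, 0 < W k) ∧
      ∀ v : Vars F, W (e v) = wt D (F v.1) v.2 := by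
    refine ⟨fun k => wt D (F (e.symm k).1) (e.symm k).2,
      fun k => wt_pos hD (hF _) (hd _) (e.symm k).2.2, fun v => ?_⟩
    show wt D (F (e.symm (e v)).1) (e.symm (e v)).2 = wt D (F v.1) v.2
    rw [Equiv.symm_apply_apply]
  refine ⟨W, D, hW, ?_⟩
  unfold polySum
  refine MvPolynomial.IsWeightedHomogeneous.sum _ _ _ fun i _ =>
    MvPolynomial.IsWeightedHomogeneous.sum _ _ _ fun j _ => ?_
  have hrel := wt_rel (hF i) (hd i) j
  have hX : ∀ v : Vars F, (MvPolynomial.X (e v) : MvPolynomial (Fin N) ℤ).IsWeightedHomogeneous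
      W (wt D (F v.1) v.2) := by
    intro v
    rw [← hW' v]
    exact MvPolynomial.isWeightedHomogeneous_X ℤ W (e v)
  split_ifs with h
  · have h1 := ((hX ⟨i, j⟩).pow ((F i).get j)).mul (hX ⟨i, ⟨j + 1, h⟩⟩)
    have h2 : (F i).get j • wt D (F i) j + wt D (F i) (j + 1) = D := by
      rw [smul_eq_mul, mul_comm]
      exact hrel
    exact h2.subst (motive := fun d => MvPolynomial.IsWeightedHomogeneous W _ d) h1
  · have h0 : wt D (F i) (j + 1) = 0 := by
      unfold wt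
      rw [List.drop_eq_nil_of_le (by omega)]
      simp [hw]
    have h1 := ((hX ⟨i, j⟩).pow ((F i).get j))
    have h2 : (F i).get j • wt D (F i) j = D := by
      rw [smul_eq_mul, mul_comm]
      rw [h0, add_zero] at hrel
      exact hrel
    rw [mul_one]
    exact h2.subst (motive := fun d => MvPolynomial.IsWeightedHomogeneous W _ d) h1

end Vale.Agent.P268.H671
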