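import Vale.Agent.P268.T.ZFalse
import Vale.Agent.P268.H671.LargeSL

/-!
# P268: counterexamples to Zariski's multiplicity conjecture in every large number of variables
-/

namespace Vale.Agent.P268.H671

open Matrix Set Filter Topology Vale.Agent.P268.Z Vale.Agent.P268.T Vale.Agent.P268.H288
  Vale.Agent.P268.T.A109

/-- The normal form of a sum of increasing chain polynomials. -/
theorem normal_form (k m r : ℕ) (F : Fin m → List ℕ) (hFn : ∑ i, (F i).length = k + 4)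
    (hF0 : ∀ i, F i ≠ []) (hF : ∀ i, ∀ a ∈ F i, 2 ≤ a) (hFc : ∀ i, (F i).IsChain (· < ·))
    (e : StairF F ≃ Fin r) (he : LinExt (fun p : StairF F => p.1) e) :
    ∃ b : NBr k r, typb gk k r b (zetaK (fun p : StairF F => p.1) e) ∧
      VEq (sumP F) (Nfb k r b) := by
  have := nonempty_stairF hF
  obtain ⟨ε₁, h1, h1'⟩ := T.blockSum m F hF0 hF hFc
  obtain ⟨ε₂, h2, h2'⟩ := blockNF k r (StairF F) (Vars F) (fun p => p.1)
    (by simpa [Vars] using hFn) Subtype.val_injective e he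
  obtain ⟨b, hb, hb'⟩ := h2' (min ε₁ ε₂) ⟨lt_min h1 h2, min_le_right _ _⟩
  exact ⟨b, hb, (h1' _ ⟨lt_min h1 h2, min_le_left _ _⟩).toVEq.trans hb'⟩

/-- The topological half: sums of increasing chain polynomials whose staircase zeta matrices are
congruent by a matrix of determinant one have globally homeomorphic zero sets. -/
theorem veq_of_SL {m n : ℕ} {F : Fin m → List ℕ} {G : Fin n → List ℕ}
    (hF0 : ∀ i, F i ≠ []) (hG0 : ∀ i, G i ≠ [])
    (hF : ∀ i, ∀ a ∈ F i, 2 ≤ a) (hG : ∀ i, ∀ a ∈ G i, 2 ≤ a)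
    (hFG : ∑ i, (F i).length = ∑ i, (G i).length) (h4 : 4 ≤ ∑ i, (F i).length)
    (hFc : ∀ i, (F i).IsChain (· < ·)) (hGc : ∀ i, (G i).IsChain (· < ·))
    (hFK : ∃ e : Fin 2 ↪ Fin m, ∀ k, F (e k) = [3])
    (e : StairF F ≃ StairF G) {U : Matrix (StairF F) (StairF F) ℤ} (hU : U.det = 1)
    (hUFG : zetaF F = Uᵀ * (zetaF G).submatrix e e * U) : VEq (sumP F) (sumP G) := by
  obtain ⟨eK, hFK⟩ := hFK
  have hne : eK 0 ≠ eK 1 := fun h => absurd (eK.injective h) (by decide)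
  obtain ⟨r, ε, δ, P, hε, hδ, hP, hV⟩ := exists_enum_linExt hF e hU hUFG hne (hFK 0) (hFK 1)
  obtain ⟨k, hk⟩ : ∃ k, ∑ i, (F i).length = k + 4 := ⟨_, (Nat.sub_add_cancel h4).symm⟩
  obtain ⟨b, hb, hb1⟩ := normal_form k m r F hk hF0 hF hFc ε hε
  obtain ⟨b', hb', hb1'⟩ := normal_form k n r G (hFG ▸ hk) hG0 hG hGc δ hδ
  have hrel : Equivalence fun b b' : NBr k r => VEq (Nfb k r b) (Nfb k r b') :=
    ⟨fun b => VEq.refl _, fun h => h.symm, fun h h' => h.trans h'⟩
  have hslide := blockSlide_of blockStep gk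
  have key : VEq (Nfb k r b') (Nfb k r b) := rel_of_step_slides hrel
    (typb_ex blockAdm (blockLetters gk) k r)
    (typb_pair blockHom blockAdm blockInj gk k r)
    (fun V i j h => hslide k r V i j (Or.inl h)) (fun V i j h => hslide k r V i j (Or.inr h))
    hP hb' (hV ▸ hb)
  exact (hb1.trans key.symm).trans hb1'.symm

/-- Counterexamples in every sufficiently large number of variables. -/
theorem large : ∃ N₀ : ℕ, ∀ N : ℕ, N₀ ≤ N →
    ∃ (p q : MvPolynomial (Fin N) ℤ) (φ : (Fin N → ℂ) ≃ₜ (Fin N → ℂ)),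
      φ 0 = 0 ∧
      (∀ z, MvPolynomial.aeval z p = 0 ↔ MvPolynomial.aeval (φ z) q = 0) ∧
      mult (fun z : Fin N → ℂ => MvPolynomial.aeval z p) = 3 ∧
      mult (fun z : Fin N → ℂ => MvPolynomial.aeval z q) = 2 ∧
      ∀ r : MvPolynomial (Fin N) ℤ, r = p ∨ r = q →
        Red (fun z : Fin N → ℂ => MvPolynomial.aeval z r) ∧
        (∀ z : Fin N → ℂ, fderiv ℂ (fun z : Fin N → ℂ => MvPolynomial.aeval z r) z = 0 → z = 0) ∧
        ∃ (w : Fin N → ℕ) (D : ℕ), (∀ k, 0 < w k) ∧ r.IsWeightedHomogeneous w D := by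
  obtain ⟨N₀, h0⟩ := SL.exists
  refine ⟨N₀, fun N hN => ?_⟩
  obtain ⟨m, n, F, G, hm, hn, hF0, hG0, hF, hG, hF3, h3, h2, hFN, hGN, h4, hFc, hGc, hFK,
    e, U, hU, hUFG⟩ := h0.of_le hN
  have hv : VEq (sumP F) (sumP G) := veq_of_SL hF0 hG0 hF hG (hFN.trans hGN.symm)
    (by rw [hFN]; exact h4) hFc hGc hFK e hU hUFG
  have hcF : Fintype.card (Vars F) = N := by simp [Vars, hFN]
  have hcG : Fintype.card (Vars G) = N := by simp [Vars, hGN]
  let eF : Vars F ≃ Fin N := Fintype.equivFinOfCardEq hcF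
  let eG : Vars G ≃ Fin N := Fintype.equivFinOfCardEq hcG
  obtain ⟨φ, hφ0, hφ⟩ : VEq (fun z : Fin N → ℂ => sumFun F (z ∘ eF))
      (fun z : Fin N → ℂ => sumFun G (z ∘ eG)) :=
    (veq_sum eF hF).symm.trans (hv.trans (veq_sum eG hG))
  have hpF : (fun z : Fin N → ℂ => MvPolynomial.aeval z (polySum F eF)) =
      fun z => sumFun F (z ∘ eF) := funext fun z => aeval_polySum F eF z
  have hpG : (fun z : Fin N → ℂ => MvPolynomial.aeval z (polySum G eG)) =
      fun z => sumFun G (z ∘ eG) := funext fun z => aeval_polySum G eG z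
  refine ⟨polySum F eF, polySum G eG, φ, hφ0, fun z => ?_, ?_, ?_, ?_⟩
  · rw [aeval_polySum, aeval_polySum]
    exact hφ z
  · rw [hpF]
    exact mult_eq_three F eF hF hF3 h3
  · rw [hpG]
    exact mult_eq_two G eG hG h2
  · rintro r (rfl | rfl)
    · refine ⟨?_, ?_, polySum_weighted F eF hF⟩
      · rw [hpF]
        exact red_sumFun F eF hF (i := ⟨0, by omega⟩) (i' := ⟨1, by omega⟩) (by simp) (hF0 _)
          (hF0 _)
      · rw [hpF]
        exact sumFun_crit F eF hF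
    · refine ⟨?_, ?_, polySum_weighted G eG hG⟩
      · rw [hpG]
        exact red_sumFun G eG hG (i := ⟨0, by omega⟩) (i' := ⟨1, by omega⟩) (by simp) (hG0 _)
          (hG0 _)
      · rw [hpG]
        exact sumFun_crit G eG hG

end Vale.Agent.P268.H671
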